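import Vale.Agent.P259.Homotopy.Disc
import Mathlib.Topology.Homotopy.Contractible
import Mathlib.Analysis.InnerProductSpace.EuclideanDist

/-! # P259: disc cells against homotopy groups, filling into weakly contractible spaces -/

open Metric Set Function Bornology
open scoped unitInterval Topology Topology.Homotopy

noncomputable section

namespace Vale.Agent.P259.Hpy

theorem exists_discCube (n : ℕ) :
    ∃ e : Disc n ≃ₜ (Fin n → I), ∀ x, x ∈ bd n ↔ e x ∈ Cube.boundary (Fin n) := by
  let c := (EuclideanSpace.equiv (Fin n) ℝ).toHomeomorph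
  let s := c ⁻¹' Set.pi univ fun _ => Icc (0 : ℝ) 1
  have hconv : Convex ℝ s :=
    (convex_pi fun i _ => convex_Icc 0 1).linear_preimage
      (EuclideanSpace.equiv (Fin n) ℝ).toLinearEquiv.toLinearMap
  have hint : interior s = c ⁻¹' Set.pi univ fun _ => Ioo (0 : ℝ) 1 := by
    rw [← c.preimage_interior, interior_pi_set finite_univ]; simp
  have hne : (interior s).Nonempty :=
    ⟨c.symm fun _ => 1 / 2, by rw [hint]; simp; norm_num⟩
  have hcl : IsClosed s := (isClosed_set_pi fun i _ => isClosed_Icc).preimage c.continuous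
  have hb : IsBounded s :=
    (c.isCompact_preimage.2 (isCompact_univ_pi fun _ => isCompact_Icc)).isBounded
  obtain ⟨h, hi, hc, hf⟩ := exists_homeomorph_image_interior_closure_frontier_eq_unitBall hconv hne hb
  rw [hcl.closure_eq] at hc
  have hmem : ∀ v, h v ∈ closedBall (0 : EuclideanSpace ℝ (Fin n)) 1 ↔ v ∈ s := fun v => by
    rw [← hc, h.injective.mem_set_image]
  have hsph : ∀ v, h v ∈ sphere (0 : EuclideanSpace ℝ (Fin n)) 1 ↔ v ∈ frontier s := fun v => by
    rw [← hf, h.injective.mem_set_image]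
  have hm : ∀ x : Disc n, h.symm x.1 ∈ s := fun x => (hmem _).1 (by simp)
  let e : Disc n ≃ₜ (Fin n → I) :=
    { toFun := fun x i => ⟨c (h.symm x.1) i, hm x i trivial⟩
      invFun := fun y => ⟨h (c.symm fun i => (y i : ℝ)),
        (hmem _).2 (by intro i _; simp)⟩
      left_inv := fun x => by apply Subtype.ext; simp
      right_inv := fun y => by funext i; apply Subtype.ext; simp
      continuous_toFun := continuous_pi fun i => ((continuous_apply i).comp
        (c.continuous.comp (h.symm.continuous.comp continuous_subtype_val))).subtype_mk _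
      continuous_invFun := (h.continuous.comp (c.symm.continuous.comp
        (continuous_pi fun i => continuous_subtype_val.comp (continuous_apply i)))).subtype_mk _ }
  refine ⟨e, fun x => ?_⟩
  have h1 : x ∈ bd n ↔ h.symm x.1 ∈ frontier s := by
    rw [← hsph, h.apply_symm_apply]; simp [bd]
  rw [h1, hcl.frontier_eq, hint]
  show _ ↔ ∃ i, e x i = 0 ∨ e x i = 1
  simp only [Set.mem_sdiff, Set.mem_preimage, Set.mem_pi, mem_univ, true_implies, hm x, true_and,
    not_forall]
  refine exists_congr fun i => ?_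
  have := hm x i trivial
  simp only [mem_Icc] at this
  simp only [mem_Ioo, not_and_or, not_lt, Subtype.ext_iff, Set.Icc.coe_zero, Set.Icc.coe_one]
  show _ ↔ c (h.symm x.1) i = 0 ∨ c (h.symm x.1) i = 1
  constructor
  · rintro (h | h)
    · exact .inl (le_antisymm h this.1)
    · exact .inr (le_antisymm this.2 h)
  · rintro (h | h)
    · exact .inl h.le
    · exact .inr h.ge

/-- A homeomorphism of the disc with the cube matching the boundaries. -/
def discCube (n : ℕ) : Disc n ≃ₜ (Fin n → I) := (exists_discCube n).choose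

theorem mem_bd_iff (n : ℕ) (x : Disc n) : x ∈ bd n ↔ discCube n x ∈ Cube.boundary (Fin n) :=
  (exists_discCube n).choose_spec x

theorem symm_mem_bd_iff (n : ℕ) (y : Fin n → I) :
    (discCube n).symm y ∈ bd n ↔ y ∈ Cube.boundary (Fin n) := by
  rw [mem_bd_iff, Homeomorph.apply_symm_apply]

variable {Y Z : Type*} [TopologicalSpace Y] [TopologicalSpace Z]

/-- Based `n`-cells: maps of the disc which are constant on the boundary. -/
abbrev Sph (n : ℕ) (y : Y) : Type _ := {f : C(Disc n, Y) // ∀ x ∈ bd n, f x = y}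

theorem homotopicRel_comp {A B : Type*} [TopologicalSpace A] [TopologicalSpace B] {S : Set A}
    {T : Set B} {f g : C(A, Y)} (H : ContinuousMap.HomotopicRel f g S) (k : C(B, A))
    (hk : ∀ b ∈ T, k b ∈ S) : ContinuousMap.HomotopicRel (f.comp k) (g.comp k) T := by
  obtain ⟨H⟩ := H
  exact ⟨{ toContinuousMap := H.toHomotopy.toContinuousMap.comp
            (ContinuousMap.prodMk ContinuousMap.fst (k.comp ContinuousMap.snd))
           map_zero_left := fun x => H.apply_zero (k x)
           map_one_left := fun x => H.apply_one (k x)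
           prop' := fun t x hx => H.prop t _ (hk x hx) }⟩

/-- The based loop of a based cell. -/
def toLoop {n : ℕ} {y : Y} (f : Sph n y) : Ω^ (Fin n) Y y :=
  ⟨f.1.comp ⟨(discCube n).symm, (discCube n).symm.continuous⟩,
    fun z hz => f.2 _ ((symm_mem_bd_iff n z).2 hz)⟩

/-- The based cell of a loop. -/
def ofLoop {n : ℕ} {y : Y} (p : Ω^ (Fin n) Y y) : Sph n y :=
  ⟨p.1.comp ⟨discCube n, (discCube n).continuous⟩,
    fun x hx => p.2 _ ((mem_bd_iff n x).1 hx)⟩

/-- The homotopy class of a based cell. -/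
def cls {n : ℕ} {y : Y} (f : Sph n y) : π_ n Y y := Quotient.mk _ (toLoop f)

theorem cls_surjective {n : ℕ} {y : Y} : Surjective (cls (n := n) (y := y)) := by
  intro q
  induction q using Quotient.inductionOn with
  | _ p =>
    refine ⟨ofLoop p, congrArg (Quotient.mk _) ?_⟩
    ext z
    simp [toLoop, ofLoop]

/-- Based cells have the same class iff an `(n+1)`-cell lies between them. -/
theorem cls_eq_iff {n : ℕ} {y : Y} (f g : Sph n y) :
    cls f = cls g ↔ ∃ c : C(Disc (n + 1), Y), c.comp (src n) = f.1 ∧ c.comp (tgt n) = g.1 := by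
  rw [cell_iff]
  constructor
  · intro h
    have h1 := homotopicRel_comp (Quotient.exact h) (⟨discCube n, (discCube n).continuous⟩)
      (fun x hx => (mem_bd_iff n x).1 hx)
    convert h1 <;> ext x <;> simp [toLoop]
  · intro h
    exact Quotient.sound (homotopicRel_comp h _ fun z hz => (symm_mem_bd_iff n z).2 hz)

/-- Post-composition of based cells. -/
def Sph.map {n : ℕ} {y : Y} (k : C(Y, Z)) (f : Sph n y) : Sph n (k y) :=
  ⟨k.comp f.1, fun x hx => congrArg k (f.2 x hx)⟩

/-- `Y` is weakly contractible. -/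
def WeaklyContractible (Y : Type*) [TopologicalSpace Y] : Prop :=
  PathConnectedSpace Y ∧ ∀ (n : ℕ) (y : Y), Subsingleton (π_ (n + 1) Y y)

theorem weaklyContractible_of_contractible [ContractibleSpace Y] : WeaklyContractible Y := by
  refine ⟨inferInstance, fun n y => ⟨fun a b => ?_⟩⟩
  obtain ⟨f, rfl⟩ := cls_surjective a
  obtain ⟨g, rfl⟩ := cls_surjective b
  rw [cls_eq_iff]
  obtain ⟨p, hp⟩ := id_nullhomotopic Y
  obtain ⟨H⟩ := hp
  let F : C(↥(bd (n + 2)), Y) :=
    ⟨fun s => if lastE s.1.1 ≤ 0 then f.1 (proj (n + 1) s.1) else g.1 (proj (n + 1) s.1), by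
      refine Continuous.if_le (f.1.continuous.comp ((proj _).continuous.comp continuous_subtype_val))
        (g.1.continuous.comp ((proj _).continuous.comp continuous_subtype_val))
        (continuous_lastE.comp (continuous_subtype_val.comp continuous_subtype_val))
        continuous_const fun s hs => ?_
      have hb : proj (n + 1) s.1 ∈ bd (n + 1) := by
        show ‖initE s.1.1‖ = 1
        have h1 := init_sq s.1.1
        rw [show ‖s.1.1‖ = 1 from s.2, hs] at h1
        nlinarith [norm_nonneg (initE s.1.1)]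
      rw [f.2 _ hb, g.2 _ hb]⟩
  let K : C(I × ↥(bd (n + 2)), Y) :=
    ⟨fun q => H (unitInterval.symm q.1, F q.2), by fun_prop⟩
  obtain ⟨c, hc⟩ := extend_cone K (y := p) (fun s => by simp [K])
  refine ⟨c, ?_, ?_⟩ <;> ext x
  · have := hc ⟨src _ x, src_mem x⟩
    simp only [K, F, ContinuousMap.coe_mk, unitInterval.symm_one] at this
    rw [ContinuousMap.comp_apply, this, H.apply_zero]
    have : lastE (src (n + 1) x).1 ≤ 0 := by simp [src_val, hgt_nonneg]
    simp [this, proj_src]
  · have := hc ⟨tgt _ x, tgt_mem x⟩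
    simp only [K, F, ContinuousMap.coe_mk, unitInterval.symm_one] at this
    rw [ContinuousMap.comp_apply, this, H.apply_zero]
    by_cases hle : lastE (tgt (n + 1) x).1 ≤ 0
    · have hx : x ∈ bd (n + 1) := by
        rw [← hgt_eq_zero]; simp [tgt_val] at hle; exact le_antisymm hle (hgt_nonneg x)
      simp [hle, proj_tgt, f.2 x hx, g.2 x hx]
    · simp [hle, proj_tgt]

theorem isCompact_bd (n : ℕ) : IsCompact (bd n) :=
  (isClosed_eq (by fun_prop) continuous_const).isCompact

/-- Every sphere in a weakly contractible space bounds a disc. -/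
theorem exists_extend_bd (hY : WeaklyContractible Y) :
    ∀ (n : ℕ) (f : C(↥(bd n), Y)), ∃ c : C(Disc n, Y), ∀ s : bd n, c s = f s := by
  have := hY.1
  intro n f
  rcases n with _ | _ | m
  · refine ⟨ContinuousMap.const _ (Classical.arbitrary Y), fun s => ?_⟩
    have h := s.2
    simp [bd, Subsingleton.elim s.1.1 0] at h
  · obtain ⟨p⟩ := PathConnectedSpace.joined (f ⟨src 0 ⟨0, by simp⟩, src_mem _⟩)
      (f ⟨tgt 0 ⟨0, by simp⟩, tgt_mem _⟩)
    let c : C(Disc 1, Y) := ⟨fun x => p (projIcc 0 1 zero_le_one ((lastE x.1 + 1) / 2)),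
      p.continuous.comp (continuous_projIcc.comp
        (((continuous_lastE.comp continuous_subtype_val).add continuous_const).div_const _))⟩
    refine ⟨c, fun s => ?_⟩
    have h1 := init_sq s.1.1
    rw [show ‖s.1.1‖ = 1 from s.2, Subsingleton.elim (initE s.1.1) 0] at h1
    simp at h1
    rcases h1 with h1 | h1
    · have hs : s = ⟨tgt 0 ⟨0, by simp⟩, tgt_mem _⟩ := by
        apply Subtype.ext; apply Subtype.ext
        rw [tgt_val, ← snocE_init_last s.1.1, h1, Subsingleton.elim (initE s.1.1) 0]
        simp [hgt]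
      conv_rhs => rw [hs]
      simp [c, h1]
    · have hs : s = ⟨src 0 ⟨0, by simp⟩, src_mem _⟩ := by
        apply Subtype.ext; apply Subtype.ext
        rw [src_val, ← snocE_init_last s.1.1, h1, Subsingleton.elim (initE s.1.1) 0]
        simp [hgt]
      conv_rhs => rw [hs]
      simp [c, h1]
  · have : CompactSpace (bd (m + 2)) := isCompact_iff_compactSpace.1 (isCompact_bd _)
    let g : Sph (m + 1) (f (north (m + 1))) :=
      ⟨f.comp (collapse (m + 1)), fun x hx => congrArg f (collapse_bd hx)⟩
    let g0 : Sph (m + 1) (f (north (m + 1))) := ⟨ContinuousMap.const _ _, fun _ _ => rfl⟩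
    have := hY.2 m (f (north (m + 1)))
    obtain ⟨H⟩ := (cell_iff g.1 g0.1).1 ((cls_eq_iff g g0).1 (Subsingleton.elim _ _))
    let k : C(I × Disc (m + 1), I × ↥(bd (m + 2))) :=
      ContinuousMap.prodMk ContinuousMap.fst ((collapse (m + 1)).comp ContinuousMap.snd)
    have hsurj : Surjective k := fun ⟨t, s⟩ =>
      let ⟨x, hx⟩ := collapse_surjective m s
      ⟨(t, x), Prod.ext rfl hx⟩
    have hq := k.continuous.isClosedMap.isQuotientMap k.continuous hsurj
    have hf : FactorsThrough H.toHomotopy.toContinuousMap k := by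
      rintro ⟨t, x⟩ ⟨t', x'⟩ e
      obtain ⟨e1, e2⟩ : t = t' ∧ collapse (m + 1) x = collapse (m + 1) x' :=
        ⟨congrArg Prod.fst e, congrArg Prod.snd e⟩
      subst e1
      rcases collapse_eq e2 with rfl | ⟨hx, hx'⟩
      · rfl
      · exact ((H.eq_fst t hx).trans (g.2 x hx)).trans ((H.eq_fst t hx').trans (g.2 x' hx')).symm
    let K := hq.lift _ hf
    have hK : ∀ p, K (k p) = H p := DFunLike.congr_fun (hq.lift_comp _ hf)
    let K' : C(I × ↥(bd (m + 2)), Y) :=
      K.comp (ContinuousMap.prodMap ⟨unitInterval.symm, unitInterval.continuous_symm⟩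
        (ContinuousMap.id _))
    have h0 : ∀ s, K' (0, s) = f (north (m + 1)) := fun s => by
      obtain ⟨x, rfl⟩ := collapse_surjective m s
      show K (unitInterval.symm 0, _) = _
      rw [unitInterval.symm_zero]
      exact (hK (1, x)).trans (H.apply_one x)
    obtain ⟨c, hc⟩ := extend_cone K' h0
    refine ⟨c, fun s => ?_⟩
    rw [hc]
    obtain ⟨x, rfl⟩ := collapse_surjective m s
    show K (unitInterval.symm 1, _) = _
    rw [unitInterval.symm_one]
    exact (hK (0, x)).trans (H.apply_zero x)

/-- Parallel cells in a weakly contractible space bound a cell. -/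
theorem exists_cell (hY : WeaklyContractible Y) {n : ℕ} (f g : C(Disc n, Y))
    (h : ∀ x ∈ bd n, f x = g x) :
    ∃ c : C(Disc (n + 1), Y), c.comp (src n) = f ∧ c.comp (tgt n) = g := by
  let F : C(↥(bd (n + 1)), Y) :=
    ⟨fun s => if lastE s.1.1 ≤ 0 then f (proj n s.1) else g (proj n s.1), by
      refine Continuous.if_le (f.continuous.comp ((proj _).continuous.comp continuous_subtype_val))
        (g.continuous.comp ((proj _).continuous.comp continuous_subtype_val))
        (continuous_lastE.comp (continuous_subtype_val.comp continuous_subtype_val))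
        continuous_const fun s hs => h _ ?_
      show ‖initE s.1.1‖ = 1
      have h1 := init_sq s.1.1
      rw [show ‖s.1.1‖ = 1 from s.2, hs] at h1
      nlinarith [norm_nonneg (initE s.1.1)]⟩
  obtain ⟨c, hc⟩ := exists_extend_bd hY (n + 1) F
  refine ⟨c, ?_, ?_⟩ <;> ext x
  · rw [ContinuousMap.comp_apply, hc ⟨_, src_mem x⟩]
    have : lastE (src n x).1 ≤ 0 := by simp [src_val, hgt_nonneg]
    simp [F, this, proj_src]
  · rw [ContinuousMap.comp_apply, hc ⟨_, tgt_mem x⟩]
    by_cases hle : lastE (tgt n x).1 ≤ 0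
    · have hx : x ∈ bd n := by
        rw [← hgt_eq_zero]; simp [tgt_val] at hle; exact le_antisymm hle (hgt_nonneg x)
      simp [F, hle, proj_tgt, h x hx]
    · simp [F, hle, proj_tgt]

/-- Extension from the frontier of a compact convex body. -/
theorem exists_extend_convex (hY : WeaklyContractible Y) {E : Type*} [NormedAddCommGroup E]
    [NormedSpace ℝ E] [FiniteDimensional ℝ E] {K : Set E} (hKc : IsCompact K) (hK : Convex ℝ K)
    (hne : (interior K).Nonempty) (F : E → Y) (hF : ContinuousOn F (frontier K)) :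
    ∃ G : E → Y, ContinuousOn G K ∧ ∀ x ∈ frontier K, G x = F x := by
  classical
  let L := toEuclidean (E := E)
  let T : Set (EuclideanSpace ℝ (Fin (Module.finrank ℝ E))) := L.symm.toHomeomorph ⁻¹' K
  obtain ⟨h, -, hcl, hfr⟩ := exists_homeomorph_image_interior_closure_frontier_eq_unitBall
    (s := T) (hK.linear_preimage L.symm.toLinearEquiv.toLinearMap)
    (by rw [← L.symm.toHomeomorph.preimage_interior]; exact hne.preimage L.symm.surjective)
    (L.symm.toHomeomorph.isCompact_preimage.2 hKc).isBounded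
  rw [(hKc.isClosed.preimage L.symm.toHomeomorph.continuous).closure_eq] at hcl
  rw [← L.symm.toHomeomorph.preimage_frontier] at hfr
  let e : E ≃ₜ EuclideanSpace ℝ (Fin (Module.finrank ℝ E)) := L.toHomeomorph.trans h
  have h1 : ∀ x, x ∈ K → e x ∈ closedBall 0 1 := fun x hx => by
    rw [← hcl]; exact ⟨L x, by simpa [T] using hx, rfl⟩
  have h2 : ∀ v ∈ sphere (0 : EuclideanSpace ℝ (Fin (Module.finrank ℝ E))) 1,
      e.symm v ∈ frontier K := fun v hv => by
    rw [← hfr] at hv
    obtain ⟨u, hu, rfl⟩ := hv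
    simpa [e] using hu
  have h3 : ∀ x ∈ frontier K, e x ∈ sphere 0 1 := fun x hx => by
    rw [← hfr]; exact ⟨L x, by simpa using hx, rfl⟩
  let f : C(↥(bd (Module.finrank ℝ E)), Y) :=
    ⟨fun s => F (e.symm s.1.1), hF.comp_continuous
      (e.symm.continuous.comp (continuous_subtype_val.comp continuous_subtype_val))
      fun s => h2 _ (mem_sphere_zero_iff_norm.2 s.2)⟩
  obtain ⟨c, hc⟩ := exists_extend_bd hY _ f
  have hp : PathConnectedSpace Y := hY.1
  refine ⟨fun x => if hx : e x ∈ closedBall 0 1 then c ⟨e x, hx⟩ else Classical.arbitrary Y,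
    ?_, fun x hx => ?_⟩
  · rw [continuousOn_iff_continuous_domRestrict]
    exact (c.continuous.comp ((e.continuous.comp continuous_subtype_val).subtype_mk
      fun x : K => h1 x x.2)).congr fun x => by
        show _ = dite _ _ _
        rw [dif_pos (h1 x x.2)]; rfl
  · have hs := h3 x hx
    show dite _ _ _ = _
    rw [dif_pos (sphere_subset_closedBall hs)]
    exact (hc ⟨⟨e x, _⟩, mem_sphere_zero_iff_norm.1 hs⟩).trans (by simp [f])

/-- Filling of a prism in a weakly contractible space. -/
theorem exists_prism (hY : WeaklyContractible Y) {n : ℕ} (f g : C(Disc n, Y))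
    (h : C(I × ↥(bd n), Y)) (h0 : ∀ s : bd n, h (0, s) = f s) (h1 : ∀ s : bd n, h (1, s) = g s) :
    ∃ H : C(I × Disc n, Y), (∀ x, H (0, x) = f x) ∧ (∀ x, H (1, x) = g x) ∧
      ∀ (t : I) (s : bd n), H (t, s.1) = h (t, s) := by
  classical
  have hp : PathConnectedSpace Y := hY.1
  let E := ℝ × EuclideanSpace ℝ (Fin n)
  let y := Classical.arbitrary Y
  let F : E → Y := fun p =>
    if hx : p.2 ∈ closedBall 0 1 then
      if p.1 = 0 then f ⟨p.2, hx⟩ else if p.1 = 1 then g ⟨p.2, hx⟩ else
        if hs : ‖p.2‖ = 1 then h (projIcc 0 1 zero_le_one p.1, ⟨⟨p.2, hx⟩, hs⟩) else y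
    else y
  let A0 : Set E := {0} ×ˢ closedBall 0 1
  let A1 : Set E := {1} ×ˢ closedBall 0 1
  let A2 : Set E := Icc 0 1 ×ˢ sphere 0 1
  have hside : ∀ p ∈ A2, ∃ (hx : p.2 ∈ closedBall 0 1) (hs : ‖p.2‖ = 1),
      F p = h (projIcc 0 1 zero_le_one p.1, ⟨⟨p.2, hx⟩, hs⟩) := by
    rintro ⟨t, x⟩ ⟨ht, hx⟩
    refine ⟨sphere_subset_closedBall hx, mem_sphere_zero_iff_norm.1 hx, ?_⟩
    simp only [F, dif_pos (sphere_subset_closedBall hx)]
    split_ifs with a b
    all_goals try subst a
    all_goals try subst b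
    · rw [projIcc_left]
      exact (h0 ⟨⟨x, sphere_subset_closedBall hx⟩, mem_sphere_zero_iff_norm.1 hx⟩).symm
    · rw [projIcc_right]
      exact (h1 ⟨⟨x, sphere_subset_closedBall hx⟩, mem_sphere_zero_iff_norm.1 hx⟩).symm
    · rfl
    · exact absurd (mem_sphere_zero_iff_norm.1 hx) ‹_›
  have c0 : ContinuousOn F A0 := by
    rw [continuousOn_iff_continuous_domRestrict]
    exact (f.continuous.comp ((continuous_snd.comp continuous_subtype_val).subtype_mk
      fun p : A0 => p.2.2)).congr fun p => by
        show _ = F p.1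
        simp only [F]
        rw [dif_pos p.2.2, if_pos (show p.1.1 = 0 from p.2.1)]
        rfl
  have c1 : ContinuousOn F A1 := by
    rw [continuousOn_iff_continuous_domRestrict]
    exact (g.continuous.comp ((continuous_snd.comp continuous_subtype_val).subtype_mk
      fun p : A1 => p.2.2)).congr fun p => by
        have h' : p.1.1 = 1 := p.2.1
        show _ = F p.1
        simp only [F]
        rw [dif_pos p.2.2, if_neg (h' ▸ one_ne_zero), if_pos h']
        rfl
  have c2 : ContinuousOn F A2 := by
    rw [continuousOn_iff_continuous_domRestrict]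
    exact (h.continuous.comp
      ((continuous_projIcc.comp (continuous_fst.comp continuous_subtype_val)).prodMk
        (((continuous_snd.comp continuous_subtype_val).subtype_mk
          fun p : A2 => sphere_subset_closedBall p.2.2).subtype_mk
            fun p => mem_sphere_zero_iff_norm.1 p.2.2))).congr
      fun p => (hside p p.2).choose_spec.choose_spec.symm
  let K : Set E := Icc 0 1 ×ˢ closedBall 0 1
  have hfr : frontier K = (A0 ∪ A1) ∪ A2 := by
    show frontier (Icc (0 : ℝ) 1 ×ˢ closedBall (0 : EuclideanSpace ℝ (Fin n)) 1) = _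
    rw [frontier_prod_eq, frontier_Icc zero_le_one, frontier_closedBall _ one_ne_zero,
      closure_Icc, isClosed_closedBall.closure_eq]
    ext ⟨t, x⟩; simp [A0, A1, A2]; tauto
  obtain ⟨G, hG, hGf⟩ := exists_extend_convex hY (K := K)
    (isCompact_Icc.prod (isCompact_closedBall _ _)) ((convex_Icc 0 1).prod (convex_closedBall _ _))
    (by rw [interior_prod_eq, interior_Icc, interior_closedBall _ one_ne_zero]
        exact (nonempty_Ioo.2 zero_lt_one).prod (nonempty_ball.2 one_pos))
    F (hfr ▸ (c0.union_of_isClosed c1 (isClosed_singleton.prod isClosed_closedBall)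
        (isClosed_singleton.prod isClosed_closedBall)).union_of_isClosed c2
      ((isClosed_singleton.prod isClosed_closedBall).union
        (isClosed_singleton.prod isClosed_closedBall))
      (isClosed_Icc.prod isClosed_sphere))
  let H : C(I × Disc n, Y) := ⟨fun p => G ((p.1 : ℝ), p.2.1),
    hG.comp_continuous (by fun_prop) fun p => ⟨p.1.2, p.2.2⟩⟩
  refine ⟨H, fun x => ?_, fun x => ?_, fun t s => ?_⟩
  · refine (hGf _ ?_).trans (by simp only [F]; rw [dif_pos x.2]; simp)
    rw [hfr]; exact .inl (.inl ⟨rfl, x.2⟩)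
  · refine (hGf _ ?_).trans (by simp only [F]; rw [dif_pos x.2]; simp)
    rw [hfr]; exact .inl (.inr ⟨rfl, x.2⟩)
  · have hm : ((t : ℝ), s.1.1) ∈ A2 := ⟨t.2, mem_sphere_zero_iff_norm.2 s.2⟩
    refine (hGf _ (hfr ▸ .inr hm)).trans ?_
    obtain ⟨_, _, e⟩ := hside _ hm
    rw [e]
    simp

end Vale.Agent.P259.Hpy

namespace Vale.Agent.P259.Hpy

open scoped Topology.Homotopy

variable {Y Z : Type*} [TopologicalSpace Y] [TopologicalSpace Z]

/-- The map on homotopy groups induced by a continuous map. -/
def piMap (n : ℕ) (y : Y) (k : C(Y, Z)) : π_ n Y y → π_ n Z (k y) :=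
  Quotient.map (fun p => ⟨k.comp p.1, fun z hz => congrArg k (p.2 z hz)⟩)
    fun _ _ ⟨H⟩ => ⟨H.compContinuousMap k⟩

theorem piMap_cls {n : ℕ} {y : Y} (k : C(Y, Z)) (f : Sph n y) :
    piMap n y k (cls f) = cls (f.map k) := rfl

end Vale.Agent.P259.Hpy
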