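import Mathlib.Topology.Homotopy.HomotopyGroup
import Mathlib.Analysis.InnerProductSpace.PiL2
import Mathlib.Analysis.Convex.GaugeRescale

/-! # P259: based homotopy on discs -/

open Metric Set Function
open scoped unitInterval Topology

noncomputable section

namespace Vale.Agent.P259.Hpy

/-- The closed `n`-disc. -/
abbrev Disc (n : ℕ) : Type := ↥(closedBall (0 : EuclideanSpace ℝ (Fin n)) 1)

/-- The boundary sphere of the disc. -/
def bd (n : ℕ) : Set (Disc n) := {x | ‖x.1‖ = 1}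

theorem norm_le {n : ℕ} (x : Disc n) : ‖x.1‖ ≤ 1 := mem_closedBall_zero_iff.1 x.2

/-- Append a last coordinate. -/
def snocE {n : ℕ} (x : EuclideanSpace ℝ (Fin n)) (h : ℝ) : EuclideanSpace ℝ (Fin (n + 1)) :=
  WithLp.toLp 2 (Fin.snoc x.ofLp h)

/-- Forget the last coordinate. -/
def initE {n : ℕ} (v : EuclideanSpace ℝ (Fin (n + 1))) : EuclideanSpace ℝ (Fin n) :=
  WithLp.toLp 2 fun i => v.ofLp i.castSucc

/-- The last coordinate. -/
def lastE {n : ℕ} (v : EuclideanSpace ℝ (Fin (n + 1))) : ℝ := v.ofLp (Fin.last n)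

@[simp] theorem initE_snocE {n : ℕ} (x : EuclideanSpace ℝ (Fin n)) (h : ℝ) :
    initE (snocE x h) = x := by ext i; simp [initE, snocE]

@[simp] theorem lastE_snocE {n : ℕ} (x : EuclideanSpace ℝ (Fin n)) (h : ℝ) :
    lastE (snocE x h) = h := by simp [lastE, snocE]

theorem snocE_init_last {n : ℕ} (v : EuclideanSpace ℝ (Fin (n + 1))) :
    snocE (initE v) (lastE v) = v := by
  ext i
  refine Fin.lastCases ?_ (fun j => ?_) i <;> simp [initE, lastE, snocE]

theorem norm_snocE_sq {n : ℕ} (x : EuclideanSpace ℝ (Fin n)) (h : ℝ) :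
    ‖snocE x h‖ ^ 2 = ‖x‖ ^ 2 + h ^ 2 := by
  simp [EuclideanSpace.norm_sq_eq, Fin.sum_univ_castSucc, snocE]

theorem snocE_inj {n : ℕ} {x x' : EuclideanSpace ℝ (Fin n)} {h h' : ℝ}
    (e : snocE x h = snocE x' h') : x = x' ∧ h = h' :=
  ⟨by simpa using congr(initE $e), by simpa using congr(lastE $e)⟩

theorem continuous_snocE {n : ℕ} {α : Type*} [TopologicalSpace α]
    {f : α → EuclideanSpace ℝ (Fin n)} {g : α → ℝ} (hf : Continuous f) (hg : Continuous g) :
    Continuous fun a => snocE (f a) (g a) := by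
  unfold snocE
  refine (PiLp.continuous_toLp 2 _).comp (continuous_pi fun i => ?_)
  refine Fin.lastCases ?_ (fun j => ?_) i
  · simpa using hg
  · simpa [Function.comp_def] using (continuous_apply j).comp ((PiLp.continuous_ofLp 2 _).comp hf)

theorem continuous_initE {n : ℕ} : Continuous (initE (n := n)) := by
  unfold initE
  exact (PiLp.continuous_toLp 2 _).comp
    (continuous_pi fun i => (continuous_apply _).comp (PiLp.continuous_ofLp 2 _))

theorem continuous_lastE {n : ℕ} : Continuous (lastE (n := n)) :=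
  (continuous_apply _).comp (PiLp.continuous_ofLp 2 _)

theorem init_sq {n : ℕ} (v : EuclideanSpace ℝ (Fin (n + 1))) :
    ‖initE v‖ ^ 2 + lastE v ^ 2 = ‖v‖ ^ 2 := by
  rw [← norm_snocE_sq, snocE_init_last]

/-- Projection of the disc to the equatorial disc. -/
def proj (n : ℕ) : C(Disc (n + 1), Disc n) where
  toFun v := ⟨initE v.1, by
    rw [mem_closedBall_zero_iff]
    nlinarith [init_sq v.1, norm_le v, norm_nonneg v.1, norm_nonneg (initE v.1)]⟩
  continuous_toFun := (continuous_initE.comp continuous_subtype_val).subtype_mk _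

/-- Height of the hemispheres over a point. -/
def hgt {n : ℕ} (x : Disc n) : ℝ := Real.sqrt (1 - ‖x.1‖ ^ 2)

theorem hgt_sq {n : ℕ} (x : Disc n) : hgt x ^ 2 = 1 - ‖x.1‖ ^ 2 :=
  Real.sq_sqrt (by nlinarith [norm_le x, norm_nonneg x.1])

theorem hgt_nonneg {n : ℕ} (x : Disc n) : 0 ≤ hgt x := Real.sqrt_nonneg _

theorem continuous_hgt {n : ℕ} : Continuous (hgt (n := n)) := by unfold hgt; fun_prop

theorem hgt_eq_zero {n : ℕ} {x : Disc n} : hgt x = 0 ↔ x ∈ bd n := by
  have := hgt_sq x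
  constructor
  · intro h
    show ‖x.1‖ = 1
    nlinarith [norm_le x, norm_nonneg x.1]
  · intro (h : ‖x.1‖ = 1)
    nlinarith [hgt_nonneg x]

/-- Straight homotopy between the two hemispheres. -/
def sweep (n : ℕ) : C(I × Disc n, Disc (n + 1)) where
  toFun p := ⟨snocE p.2.1 ((2 * (p.1 : ℝ) - 1) * hgt p.2), by
    rw [mem_closedBall_zero_iff]
    have h1 := hgt_sq p.2
    have h2 : (2 * (p.1 : ℝ) - 1) ^ 2 ≤ 1 := by nlinarith [p.1.2.1, p.1.2.2]
    nlinarith [norm_snocE_sq p.2.1 ((2 * (p.1 : ℝ) - 1) * hgt p.2),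
      norm_nonneg (snocE p.2.1 ((2 * (p.1 : ℝ) - 1) * hgt p.2)),
      mul_le_mul_of_nonneg_right h2 (sq_nonneg (hgt p.2))]⟩
  continuous_toFun := (continuous_snocE (continuous_subtype_val.comp continuous_snd)
    (((continuous_const.mul (continuous_subtype_val.comp continuous_fst)).sub
      continuous_const).mul (continuous_hgt.comp continuous_snd))).subtype_mk _

/-- The source hemisphere. -/
def src (n : ℕ) : C(Disc n, Disc (n + 1)) :=
  (sweep n).comp ((ContinuousMap.const _ 0).prodMk (ContinuousMap.id _))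

/-- The target hemisphere. -/
def tgt (n : ℕ) : C(Disc n, Disc (n + 1)) :=
  (sweep n).comp ((ContinuousMap.const _ 1).prodMk (ContinuousMap.id _))

theorem src_val {n : ℕ} (x : Disc n) : (src n x).1 = snocE x.1 (-hgt x) := by
  simp [src, sweep]

theorem tgt_val {n : ℕ} (x : Disc n) : (tgt n x).1 = snocE x.1 (hgt x) := by
  simp [tgt, sweep]; norm_num

theorem proj_src {n : ℕ} (x : Disc n) : proj n (src n x) = x := by
  apply Subtype.ext; simp [proj, src_val]

theorem proj_tgt {n : ℕ} (x : Disc n) : proj n (tgt n x) = x := by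
  apply Subtype.ext; simp [proj, tgt_val]

theorem src_mem {n : ℕ} (x : Disc n) : src n x ∈ bd (n + 1) := by
  show ‖_‖ = 1
  rw [src_val]
  nlinarith [norm_snocE_sq x.1 (-hgt x), hgt_sq x, norm_nonneg (snocE x.1 (-hgt x))]

theorem tgt_mem {n : ℕ} (x : Disc n) : tgt n x ∈ bd (n + 1) := by
  show ‖_‖ = 1
  rw [tgt_val]
  nlinarith [norm_snocE_sq x.1 (hgt x), hgt_sq x, norm_nonneg (snocE x.1 (hgt x))]

theorem sweep_surjective (n : ℕ) : Surjective (sweep n) := by
  intro v
  have hsq : hgt (proj n v) ^ 2 = 1 - ‖initE v.1‖ ^ 2 := hgt_sq (proj n v)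
  by_cases h : hgt (proj n v) = 0
  · refine ⟨(0, proj n v), Subtype.ext ?_⟩
    have h0 : lastE v.1 = 0 := by
      nlinarith [hsq, init_sq v.1, norm_le v, norm_nonneg v.1]
    show snocE (initE v.1) _ = v.1
    rw [h, mul_zero, ← h0, snocE_init_last]
  · have hp : 0 < hgt (proj n v) := lt_of_le_of_ne (hgt_nonneg _) (Ne.symm h)
    have h1 : lastE v.1 ^ 2 ≤ hgt (proj n v) ^ 2 := by
      nlinarith [hsq, init_sq v.1, norm_le v, norm_nonneg v.1]
    have h2 := abs_le.1 ((sq_le_sq.1 h1).trans (abs_of_pos hp).le)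
    have hq : (lastE v.1 / hgt (proj n v)) * hgt (proj n v) = lastE v.1 := by field_simp
    refine ⟨(⟨(1 + lastE v.1 / hgt (proj n v)) / 2, ?_, ?_⟩, proj n v), Subtype.ext ?_⟩
    · have := (le_div_iff₀ hp).2 (show (-1 : ℝ) * hgt (proj n v) ≤ lastE v.1 by linarith [h2.1])
      linarith
    · have := (div_le_iff₀ hp).2 (show lastE v.1 ≤ 1 * hgt (proj n v) by linarith [h2.2])
      linarith
    · show snocE (initE v.1) _ = v.1
      rw [show (2 * ((1 + lastE v.1 / hgt (proj n v)) / 2) - 1) * hgt (proj n v) = lastE v.1 by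
        rw [← hq]; ring_nf; field_simp]
      exact snocE_init_last _

theorem sweep_eq {n : ℕ} {p q : I × Disc n} (h : sweep n p = sweep n q) :
    p = q ∨ (p.2 = q.2 ∧ p.2 ∈ bd n) := by
  obtain ⟨h1, h2⟩ := snocE_inj (congrArg Subtype.val h)
  have h3 : p.2 = q.2 := Subtype.ext h1
  by_cases hb : p.2 ∈ bd n
  · exact .inr ⟨h3, hb⟩
  · refine .inl (Prod.ext (Subtype.ext ?_) h3)
    rw [← h3] at h2
    have := mul_right_cancel₀ (mt hgt_eq_zero.1 hb) h2
    linarith

variable {Y : Type*} [TopologicalSpace Y]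

/-- An `(n+1)`-cell with given hemispheres is a homotopy relative to the boundary. -/
theorem cell_iff {n : ℕ} (f g : C(Disc n, Y)) :
    (∃ c : C(Disc (n + 1), Y), c.comp (src n) = f ∧ c.comp (tgt n) = g) ↔
      ContinuousMap.HomotopicRel f g (bd n) := by
  constructor
  · rintro ⟨c, rfl, rfl⟩
    refine ⟨{ toContinuousMap := c.comp (sweep n)
              map_zero_left := fun x => rfl
              map_one_left := fun x => rfl
              prop' := fun t x hx => ?_ }⟩
    refine congrArg c (Subtype.ext ?_)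
    simp [sweep, hgt_eq_zero.2 hx, src_val]
  · rintro ⟨H⟩
    have hq := (sweep n).continuous.isClosedMap.isQuotientMap (sweep n).continuous
      (sweep_surjective n)
    have hf : FactorsThrough H.toHomotopy.toContinuousMap (sweep n) := by
      intro p q e
      rcases sweep_eq e with rfl | ⟨e2, hb⟩
      · rfl
      · obtain ⟨t, x⟩ := p; obtain ⟨s, y⟩ := q
        obtain rfl : x = y := e2
        exact (H.eq_fst t hb).trans (H.eq_fst s hb).symm
    let c := hq.lift _ hf
    have hc : ∀ p, c (sweep n p) = H p := DFunLike.congr_fun (hq.lift_comp _ hf)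
    refine ⟨c, ?_, ?_⟩ <;> ext x
    · exact (hc (0, x)).trans (H.apply_zero x)
    · exact (hc (1, x)).trans (H.apply_one x)

/-- Collapse the boundary of the disc to the north pole. -/
def collapse (n : ℕ) : C(Disc n, bd (n + 1)) where
  toFun x := ⟨⟨snocE ((2 * hgt x) • x.1) (2 * ‖x.1‖ ^ 2 - 1), by
      rw [mem_closedBall_zero_iff]
      have := norm_snocE_sq ((2 * hgt x) • x.1) (2 * ‖x.1‖ ^ 2 - 1)
      rw [norm_smul, mul_pow, Real.norm_eq_abs, sq_abs, mul_pow, hgt_sq] at this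
      nlinarith [norm_nonneg (snocE ((2 * hgt x) • x.1) (2 * ‖x.1‖ ^ 2 - 1))]⟩, by
    show ‖_‖ = 1
    have := norm_snocE_sq ((2 * hgt x) • x.1) (2 * ‖x.1‖ ^ 2 - 1)
    rw [norm_smul, mul_pow, Real.norm_eq_abs, sq_abs, mul_pow, hgt_sq] at this
    nlinarith [norm_nonneg (snocE ((2 * hgt x) • x.1) (2 * ‖x.1‖ ^ 2 - 1))]⟩
  continuous_toFun := ((continuous_snocE
    ((continuous_const.mul continuous_hgt).smul continuous_subtype_val)
    (by fun_prop)).subtype_mk _).subtype_mk _

/-- The north pole. -/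
def north (n : ℕ) : bd (n + 1) :=
  ⟨tgt n ⟨0, by simp⟩, tgt_mem _⟩

theorem collapse_bd {n : ℕ} {x : Disc n} (h : x ∈ bd n) : collapse n x = north n := by
  have h1 : ‖x.1‖ = 1 := h
  apply Subtype.ext; apply Subtype.ext
  show snocE _ _ = (tgt n ⟨0, _⟩).1
  rw [tgt_val, hgt_eq_zero.2 h, h1]
  simp [hgt]; norm_num

theorem collapse_eq {n : ℕ} {x y : Disc n} (h : collapse n x = collapse n y) :
    x = y ∨ (x ∈ bd n ∧ y ∈ bd n) := by
  obtain ⟨h1, h2⟩ := snocE_inj (congrArg (fun z => z.1.1) h)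
  have h3 : ‖x.1‖ = ‖y.1‖ := by nlinarith [norm_nonneg x.1, norm_nonneg y.1]
  by_cases hb : x ∈ bd n
  · exact .inr ⟨hb, h3.symm.trans hb⟩
  · have h4 : hgt x = hgt y := by rw [hgt, hgt, h3]
    rw [← h4] at h1
    exact .inl (Subtype.ext (smul_right_injective _
      (mul_ne_zero two_ne_zero (mt hgt_eq_zero.1 hb)) h1))

theorem collapse_surjective (n : ℕ) : Surjective (collapse (n + 1)) := by
  intro z
  set v := z.1.1 with hv
  have hz : ‖v‖ = 1 := z.2
  have hs := init_sq v
  rw [hz] at hs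
  by_cases h : lastE v = 1
  · refine ⟨⟨EuclideanSpace.single 0 1, by simp⟩, ?_⟩
    rw [collapse_bd (show _ ∈ bd (n + 1) by simp [bd])]
    apply Subtype.ext; apply Subtype.ext
    have h0 : initE v = 0 := by
      rw [← norm_eq_zero]; nlinarith [norm_nonneg (initE v)]
    show (tgt _ ⟨0, _⟩).1 = v
    rw [tgt_val, ← snocE_init_last v, h0, h]
    simp [hgt]
  · have hl : lastE v ≤ 1 ∧ -1 ≤ lastE v := by
      constructor <;> nlinarith [sq_nonneg ‖initE v‖]
    obtain ⟨c, hc⟩ : ∃ c, c = Real.sqrt ((1 - lastE v) / 2) := ⟨_, rfl⟩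
    have hc2 : c ^ 2 = (1 - lastE v) / 2 := by rw [hc]; exact Real.sq_sqrt (by linarith)
    have hc0 : 0 < c := by
      rw [hc]; exact Real.sqrt_pos.2 (by linarith [lt_of_le_of_ne hl.1 h])
    have hn : ‖((2 * c)⁻¹ • initE v)‖ ^ 2 = (1 + lastE v) / 2 := by
      rw [norm_smul, mul_pow, Real.norm_eq_abs, sq_abs]
      field_simp
      nlinarith
    have hm : ((2 * c)⁻¹ • initE v) ∈ closedBall (0 : EuclideanSpace ℝ (Fin (n + 1))) 1 := by
      rw [mem_closedBall_zero_iff]; nlinarith [norm_nonneg ((2 * c)⁻¹ • initE v)]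
    refine ⟨⟨_, hm⟩, ?_⟩
    apply Subtype.ext; apply Subtype.ext
    show snocE _ _ = v
    have hh : hgt (⟨_, hm⟩ : Disc (n + 1)) = c := by
      rw [hgt, hn, hc]; congr 1; ring
    rw [hh, smul_smul, mul_inv_cancel₀ (by positivity), one_smul, hn]
    convert snocE_init_last v using 2
    ring

/-- A homotopy on the sphere ending at a constant gives an extension to the disc. -/
theorem extend_cone {n : ℕ} (H : C(I × bd (n + 1), Y)) {y : Y} (h0 : ∀ s, H (0, s) = y) :
    ∃ c : C(Disc (n + 1), Y), ∀ s : bd (n + 1), c s = H (1, s) := by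
  let k : C(I × bd (n + 1), Disc (n + 1)) := ⟨fun p => ⟨(p.1 : ℝ) • p.2.1.1, by
    rw [mem_closedBall_zero_iff, norm_smul, show ‖p.2.1.1‖ = 1 from p.2.2, mul_one,
      Real.norm_of_nonneg p.1.2.1]
    exact p.1.2.2⟩, by fun_prop⟩
  have hsurj : Surjective k := by
    intro x
    by_cases hx : x.1 = 0
    · exact ⟨(0, north n), Subtype.ext (by simp [k, hx])⟩
    · have hp : 0 < ‖x.1‖ := norm_pos_iff.2 hx
      refine ⟨(⟨‖x.1‖, hp.le, norm_le x⟩, ⟨⟨‖x.1‖⁻¹ • x.1, ?_⟩, ?_⟩), Subtype.ext ?_⟩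
      · simp [norm_smul, hp.ne']
      · simp [bd, norm_smul, hp.ne']
      · simp [k, smul_smul, hp.ne']
  have : CompactSpace (bd (n + 1)) := isCompact_iff_compactSpace.1
    (IsClosed.isCompact (isClosed_eq (by fun_prop) continuous_const))
  have hq := k.continuous.isClosedMap.isQuotientMap k.continuous hsurj
  have hf : FactorsThrough H k := by
    rintro ⟨t, s⟩ ⟨t', s'⟩ e
    have e1 : (t : ℝ) • s.1.1 = (t' : ℝ) • s'.1.1 := congrArg Subtype.val e
    have e2 := congrArg (fun z => ‖z‖) e1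
    simp only [norm_smul, show ‖s.1.1‖ = 1 from s.2, show ‖s'.1.1‖ = 1 from s'.2, mul_one,
      Real.norm_of_nonneg t.2.1, Real.norm_of_nonneg t'.2.1] at e2
    obtain rfl : t = t' := Subtype.ext e2
    by_cases ht : (t : ℝ) = 0
    · obtain rfl : t = 0 := Subtype.ext ht
      rw [h0, h0]
    · obtain rfl : s = s' := Subtype.ext (Subtype.ext (smul_right_injective _ ht e1))
      rfl
  refine ⟨hq.lift _ hf, fun s => ?_⟩
  have := DFunLike.congr_fun (hq.lift_comp _ hf) (1, s)
  rw [ContinuousMap.comp_apply] at this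
  convert this
  exact Subtype.ext (by simp [k])

end Vale.Agent.P259.Hpy
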